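import Vale.Agent.P054.T2.H930.Jets
import Vale.Agent.P054.T2.H192.Coord

set_option autoImplicit false
set_option linter.unusedSectionVars false
set_option linter.unusedSimpArgs false

/-!
# P054 / T2, leaf [C2]: germs under projections

* `aeval_zc_eq_zero` : independent affine coordinates have independent jets;
* `comap_J`, `comap_germ` : the projection of a germ whose extra equations are vertical;
* `finrank_comap_J` (RJET) : the jets of the germ in the variables of a block which contains
  local coordinates.
-/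

open MvPolynomial Module

namespace Vale.Agent.P054.T2.H395

open H930 H192

section general

variable {σ : Type*} [Fintype σ] [DecidableEq σ] {k : Type*} [Field k]

/-- complement of an independent family of covectors -/
theorem exists_compl {ι : Type*} [Fintype ι] (G : ι → σ → k) (hG : LinearIndependent k G) :
    ∃ e : ℕ, e + Fintype.card ι = Fintype.card σ ∧
      ∃ a : Fin e → σ → k, LinearIndependent k (Sum.elim a G : Fin e ⊕ ι → σ → k) := by
  classical
  obtain ⟨Q, hQ⟩ := Submodule.exists_isCompl (Submodule.span k (Set.range G))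
  have h1 : finrank k (Submodule.span k (Set.range G)) = Fintype.card ι :=
    finrank_span_eq_card hG
  have h2 := Submodule.finrank_add_eq_of_isCompl hQ
  rw [h1, Module.finrank_fintype_fun_eq_card] at h2
  let b := Module.finBasis k Q
  refine ⟨finrank k Q, by omega, fun i => (b i : σ → k), ?_⟩
  have h3 : LinearIndependent k (fun i => (b i : σ → k)) :=
    b.linearIndependent.map' Q.subtype (Submodule.ker_subtype Q)
  refine h3.sum_type hG ?_
  have h4 : Submodule.span k (Set.range fun i => (b i : σ → k)) ≤ Q := by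
    rw [Submodule.span_le]
    rintro _ ⟨i, rfl⟩
    exact (b i).2
  exact (hQ.disjoint.symm).mono_left h4

/-- independent affine coordinates have independent jets on the germ -/
theorem aeval_zc_eq_zero {τ : Type*} [Fintype τ] [DecidableEq τ] {c : ℕ} (p : σ → k)
    (F : Fin c → MvPolynomial σ k) (hF : ∀ i, eval p (F i) = 0) (a : τ → σ → k)
    (hind : LinearIndependent k (Sum.elim a (fun i => grad p (F i)) : τ ⊕ Fin c → σ → k))
    {n : ℕ} {A : MvPolynomial τ k} (hA : ∀ d ∈ A.support, d.degree < n)
    (h : aeval (zc p a) A ∈ J p F n) : A = 0 := by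
  classical
  obtain ⟨e, he, a', ha'⟩ := exists_compl _ hind
  rw [Fintype.card_sum, Fintype.card_fin] at he
  have hind2 : LinearIndependent k
      (Sum.elim (Sum.elim a a') (fun i => grad p (F i)) : (τ ⊕ Fin e) ⊕ Fin c → σ → k) := by
    let g : (τ ⊕ Fin e) ⊕ Fin c → Fin e ⊕ (τ ⊕ Fin c) :=
      Sum.elim (Sum.elim (fun x => Sum.inr (Sum.inl x)) (fun x => Sum.inl x))
        (fun x => Sum.inr (Sum.inr x))
    have hg : Function.Injective g := by
      rintro ((x | x) | x) ((y | y) | y) hxy <;> simp_all [g]
    have h2 := ha'.comp g hg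
    convert h2 using 1
    funext x
    rcases x with (x | x) | x <;> rfl
  obtain ⟨φ, h1, -, h3, -⟩ := exists_germ_coord p F hF (Sum.elim a a') hind2 (by
    rw [Fintype.card_sum, Fintype.card_fin]; omega)
  have h4 : aeval (zc p (Sum.elim a a')) (rename (Sum.inl : τ → τ ⊕ Fin e) A)
      = aeval (zc p a) A := by
    rw [aeval_rename]
    rfl
  rw [← h4, ← h3, h1] at h
  ext d
  by_cases hd : d ∈ A.support
  · have h5 := mem_ordI'.1 h (d.mapDomain Sum.inl) (by
      rw [Finsupp.degree_mapDomain]
      exact hA d hd)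
    rw [MvPolynomial.coeff_coe, coeff_rename_mapDomain _ Sum.inl_injective] at h5
    rw [h5, coeff_zero]
  · rw [notMem_support_iff.1 hd, coeff_zero]

/-- dimension of the quotient of a subring which surjects on the quotient -/
theorem finrank_comap_of_surj {ρ : Type*} (ψ : MvPolynomial ρ k →ₐ[k] MvPolynomial σ k)
    (I : Ideal (MvPolynomial σ k)) (h : ∀ F, ∃ G, F - ψ G ∈ I) :
    finrank k (MvPolynomial ρ k ⧸ I.comap ψ) = finrank k (MvPolynomial σ k ⧸ I) := by
  let f : MvPolynomial ρ k →ₐ[k] (MvPolynomial σ k ⧸ I) := (Ideal.Quotient.mkₐ k I).comp ψ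
  have hf : Function.Surjective f := by
    intro y
    obtain ⟨F, rfl⟩ := Ideal.Quotient.mk_surjective y
    obtain ⟨G, hG⟩ := h F
    refine ⟨G, ?_⟩
    change Ideal.Quotient.mk I (ψ G) = Ideal.Quotient.mk I F
    rw [Ideal.Quotient.eq]
    have := Ideal.neg_mem_iff _ |>.2 hG
    rwa [neg_sub] at this
  have hker : RingHom.ker f = I.comap ψ := by
    ext G
    rw [RingHom.mem_ker]
    change Ideal.Quotient.mk I (ψ G) = 0 ↔ _
    rw [Ideal.Quotient.eq_zero_iff_mem]
    rfl
  rw [← hker]
  exact (Ideal.quotientKerAlgEquivOfSurjective hf).toLinearEquiv.finrank_eq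

end general

section proj

variable {α β : Type*} [Fintype α] [DecidableEq α] [Fintype β] [DecidableEq β]
  {k : Type*} [Field k]

theorem eval_rename_inl (p : α ⊕ β → k) (G : MvPolynomial α k) :
    eval p (rename Sum.inl G) = eval (fun x => p (Sum.inl x)) G := by
  rw [eval_rename]; rfl

theorem grad_rename_inl (p : α ⊕ β → k) (G : MvPolynomial α k) :
    grad p (rename Sum.inl G) = Sum.elim (grad (fun x => p (Sum.inl x)) G) 0 := by
  classical
  funext j
  rcases j with j | j
  · simp only [grad, Sum.elim_inl]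
    rw [pderiv_rename Sum.inl_injective, eval_rename_inl]
  · simp only [grad, Sum.elim_inr, Pi.zero_apply]
    have : pderiv (Sum.inr j) (rename (Sum.inl : α → α ⊕ β) G) = 0 := by
      apply pderiv_eq_zero_of_notMem_vars
      intro h
      have h2 := vars_rename _ _ h
      simp at h2
    rw [this, map_zero]

/-- **[COMAP]** on the level of jets -/
theorem comap_J {c m : ℕ} (p : α ⊕ β → k) (f : Fin c → MvPolynomial α k)
    (F : Fin (c + m) → MvPolynomial (α ⊕ β) k)
    (hleft : ∀ i, F (Fin.castAdd m i) = rename Sum.inl (f i))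
    (hF : ∀ i, eval p (F i) = 0)
    (hindf : LinearIndependent k (fun i => grad (fun x => p (Sum.inl x)) (f i)))
    (hindr : LinearIndependent k
      (fun (j : Fin m) (z : β) => eval p (pderiv (Sum.inr z) (F (Fin.natAdd c j))))) (n : ℕ) :
    (J p F n).comap (rename (R := k) (Sum.inl : α → α ⊕ β)) =
      J (fun x => p (Sum.inl x)) f n := by
  classical
  have hf : ∀ i, eval (fun x => p (Sum.inl x)) (f i) = 0 := by
    intro i
    rw [← eval_rename_inl, ← hleft]
    exact hF _
  have hge : J (fun x => p (Sum.inl x)) f n ≤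
      (J p F n).comap (rename (R := k) (Sum.inl : α → α ⊕ β)) := by
    unfold J
    refine sup_le ?_ ?_
    · rw [Ideal.span_le]
      rintro _ ⟨i, rfl⟩
      change rename Sum.inl (f i) ∈
        (Ideal.span (Set.range F) ⊔ (mx p) ^ n : Ideal (MvPolynomial (α ⊕ β) k))
      rw [← hleft]
      exact Ideal.mem_sup_left (Ideal.subset_span ⟨_, rfl⟩)
    · refine le_trans ?_ (Ideal.comap_mono le_sup_right)
      refine le_trans ?_ (Ideal.le_comap_pow _ n)
      refine Ideal.pow_right_mono ?_ n
      intro G hG
      change eval p (rename Sum.inl G) = 0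
      rw [eval_rename_inl]
      exact hG
  refine le_antisymm ?_ hge
  intro G hG
  obtain ⟨e, he, a, ha⟩ := exists_compl _ hindf
  rw [Fintype.card_fin] at he
  obtain ⟨φ, -, -, -, h4⟩ := exists_germ_coord (fun x => p (Sum.inl x)) f hf a ha (by
    rw [Fintype.card_fin]; omega)
  obtain ⟨A, hA, hA'⟩ := h4 n G
  have hmem : aeval (zc p (fun l => (Sum.elim (a l) 0 : α ⊕ β → k))) A ∈ J p F n := by
    have h5 : rename Sum.inl (G - aeval (zc (fun x => p (Sum.inl x)) a) A) ∈ J p F n := hge hA'
    have h6 : aeval (zc p (fun l => (Sum.elim (a l) 0 : α ⊕ β → k))) A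
        = rename Sum.inl (aeval (zc (fun x => p (Sum.inl x)) a) A) := by
      rw [← AlgHom.comp_apply, MvPolynomial.comp_aeval]
      congr 2
      funext l
      unfold zc
      rw [Fintype.sum_sum_type]
      simp only [Sum.elim_inl, Sum.elim_inr, Pi.zero_apply, map_zero, zero_mul,
        Finset.sum_const_zero, add_zero, Function.comp_apply, map_sum, map_mul, map_sub,
        rename_X, algHom_C, MvPolynomial.algebraMap_eq]
    rw [h6]
    have h7 := Ideal.sub_mem _ (show rename Sum.inl G ∈ J p F n from hG) h5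
    rwa [map_sub, sub_sub_cancel] at h7
  have hindF : LinearIndependent k
      (Sum.elim (fun l => (Sum.elim (a l) 0 : α ⊕ β → k)) (fun i => grad p (F i)) :
        Fin e ⊕ Fin (c + m) → α ⊕ β → k) := by
    rw [Fintype.linearIndependent_iff]
    intro g hg
    rw [Fintype.sum_sum_type, Fin.sum_univ_add] at hg
    simp only [Sum.elim_inl, Sum.elim_inr] at hg
    have h8 : ∀ j, g (Sum.inr (Fin.natAdd c j)) = 0 := by
      refine Fintype.linearIndependent_iff.1 hindr (fun j => g (Sum.inr (Fin.natAdd c j))) ?_
      funext z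
      have h9 := congrFun hg (Sum.inr z)
      simp only [Pi.add_apply, Finset.sum_apply, Pi.smul_apply, Sum.elim_inr, Pi.zero_apply,
        smul_eq_mul, mul_zero, Finset.sum_const_zero, zero_add, hleft, grad_rename_inl] at h9
      simpa [grad] using h9
    have h10 : ∀ x, (Sum.elim (fun l => g (Sum.inl l))
        (fun i => g (Sum.inr (Fin.castAdd m i))) : Fin e ⊕ Fin c → k) x = 0 := by
      refine Fintype.linearIndependent_iff.1 ha _ ?_
      rw [Fintype.sum_sum_type]
      funext z
      have h9 := congrFun hg (Sum.inl z)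
      simp only [Pi.add_apply, Finset.sum_apply, Pi.smul_apply, Sum.elim_inl, Sum.elim_inr,
        smul_eq_mul, hleft, grad_rename_inl, h8, zero_mul, Finset.sum_const_zero,
        add_zero, Pi.zero_apply] at h9 ⊢
      exact h9
    rintro (l | i)
    · exact h10 (Sum.inl l)
    · refine Fin.addCases (fun i => ?_) (fun j => ?_) i
      · exact h10 (Sum.inr i)
      · exact h8 j
  have hA0 : A = 0 := aeval_zc_eq_zero p F hF _ hindF hA hmem
  rw [hA0, map_zero, sub_zero] at hA'
  exact hA'

/-- **[COMAP]** -/
theorem comap_germ {c m : ℕ} (p : α ⊕ β → k) (f : Fin c → MvPolynomial α k)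
    (F : Fin (c + m) → MvPolynomial (α ⊕ β) k)
    (hleft : ∀ i, F (Fin.castAdd m i) = rename Sum.inl (f i))
    (hF : ∀ i, eval p (F i) = 0)
    (hindf : LinearIndependent k (fun i => grad (fun x => p (Sum.inl x)) (f i)))
    (hindr : LinearIndependent k
      (fun (j : Fin m) (z : β) => eval p (pderiv (Sum.inr z) (F (Fin.natAdd c j))))) :
    (germ p F).comap (rename (R := k) (Sum.inl : α → α ⊕ β)) =
      germ (fun x => p (Sum.inl x)) f := by
  unfold germ
  rw [Ideal.comap_iInf]
  exact iInf_congr fun n => comap_J p f F hleft hF hindf hindr n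

/-- **[RJET]** the `β`-variables `x l`, `l : τ`, are local coordinates: the jets of the germ are
the jets in the block `β` -/
theorem finrank_comap_J {τ : Type*} [Fintype τ] [DecidableEq τ] {c : ℕ} (p : α ⊕ β → k)
    (F : Fin c → MvPolynomial (α ⊕ β) k) (hF : ∀ i, eval p (F i) = 0) (x : τ → β)
    (hind : LinearIndependent k (Sum.elim (fun l => Pi.single (Sum.inr (x l)) (1 : k))
      (fun i => grad p (F i)) : τ ⊕ Fin c → (α ⊕ β → k)))
    (hcard : Fintype.card τ + c = Fintype.card (α ⊕ β)) (n : ℕ) :
    finrank k (MvPolynomial β k ⧸ (J p F (n + 1)).comap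
      (rename (R := k) (Sum.inr : β → α ⊕ β))) =
      (n + Fintype.card τ).choose (Fintype.card τ) := by
  classical
  obtain ⟨φ, -, -, -, h4⟩ := exists_germ_vars p F hF (fun l => Sum.inr (x l)) hind hcard
  have h := finrank_comap_of_surj (rename (R := k) (Sum.inr : β → α ⊕ β)) (J p F (n + 1)) (by
    intro G
    obtain ⟨A, -, hA⟩ := h4 (n + 1) G
    refine ⟨aeval (fun l => X (x l) - C (p (Sum.inr (x l)))) A, ?_⟩
    have h6 : rename (R := k) (Sum.inr : β → α ⊕ β)
        (aeval (fun l => X (x l) - C (p (Sum.inr (x l)))) A)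
        = aeval (fun l => X (Sum.inr (x l)) - C (p (Sum.inr (x l)))) A := by
      rw [← AlgHom.comp_apply, MvPolynomial.comp_aeval]
      congr 2
      funext l
      simp only [map_sub, rename_X, algHom_C, MvPolynomial.algebraMap_eq]
    rw [h6]
    exact hA)
  rw [show ((J p F (n + 1)).comap (rename (R := k) (Sum.inr : β → α ⊕ β))) =
    (J p F (n + 1)).comap (rename (R := k) (Sum.inr : β → α ⊕ β) : MvPolynomial β k →ₐ[k] _)
    from rfl, h]
  have hind2 : LinearIndependent k (fun i => grad p (F i)) := by
    have := hind.comp (Sum.inr : Fin c → τ ⊕ Fin c) Sum.inr_injective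
    exact this
  rw [finrank_quot_J p F hF hind2 n]
  have : Fintype.card (α ⊕ β) - c = Fintype.card τ := by omega
  rw [this]

/-- local coordinates inside the block `β`, if no tangent vector of the germ is `β`-vertical -/
theorem exists_coord_inr {c : ℕ} (p : α ⊕ β → k) (F : Fin c → MvPolynomial (α ⊕ β) k)
    (hind : LinearIndependent k (fun i => grad p (F i)))
    (hinj : ∀ w : α → k, (∀ i, ∑ j, grad p (F i) (Sum.inl j) * w j = 0) → w = 0) :
    ∃ (e : ℕ), e + c = Fintype.card (α ⊕ β) ∧ ∃ x : Fin e → β, Function.Injective x ∧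
      LinearIndependent k (Sum.elim (fun l => Pi.single (Sum.inr (x l)) (1 : k))
        (fun i => grad p (F i)) : Fin e ⊕ Fin c → (α ⊕ β → k)) := by
  classical
  let S : β → (α ⊕ β → k) := fun z => Pi.single (Sum.inr z) (1 : k)
  let G : Fin c → (α ⊕ β → k) := fun i => grad p (F i)
  have hS : Function.Injective S := by
    intro z z' h
    have h1 := congrFun h (Sum.inr z)
    by_contra hne
    have h2 : (Sum.inr z : α ⊕ β) ≠ Sum.inr z' := fun h => hne (Sum.inr_injective h)
    simp only [S, Pi.single_eq_same, Pi.single_eq_of_ne h2] at h1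
    exact one_ne_zero h1
  have htop : Submodule.span k (Set.range G ∪ Set.range S) = ⊤ := by
    by_contra hne
    obtain ⟨g, hg, hle⟩ := Submodule.exists_le_ker_of_lt_top _ (lt_top_iff_ne_top.2 hne)
    have h1 : ∀ z, g (S z) = 0 := fun z =>
      hle (Submodule.subset_span (Or.inr ⟨z, rfl⟩))
    have h2 : ∀ i, g (G i) = 0 := fun i =>
      hle (Submodule.subset_span (Or.inl ⟨i, rfl⟩))
    have h3 : ∀ v : α ⊕ β → k, g v = ∑ j, v j * g (Pi.single j 1) := by
      intro v
      conv_lhs => rw [LinearMap.pi_apply_eq_sum_univ g v]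
      refine Finset.sum_congr rfl fun j _ => ?_
      rw [smul_eq_mul]
      congr 2
      funext i
      by_cases h : j = i
      · subst h; simp
      · simp [h, Ne.symm h]
    have h4 : (fun j : α => g (Pi.single (Sum.inl j) 1)) = 0 := by
      refine hinj _ (fun i => ?_)
      have h5 := h2 i
      rw [h3, Fintype.sum_sum_type] at h5
      have h6 : ∑ z : β, G i (Sum.inr z) * g (Pi.single (Sum.inr z) 1) = 0 :=
        Finset.sum_eq_zero fun z _ => by
          have := h1 z
          simp only [S] at this
          rw [this, mul_zero]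
      rw [h6, add_zero] at h5
      exact h5
    apply hg
    refine LinearMap.ext fun v => ?_
    rw [h3, Fintype.sum_sum_type, LinearMap.zero_apply]
    have h7 : ∀ j : α, g (Pi.single (Sum.inl j) 1) = 0 := fun j => congrFun h4 j
    have h8 : ∀ z : β, g (Pi.single (Sum.inr z) 1) = 0 := h1
    simp [h7, h8]
  obtain ⟨b, hbt, hsb, htb, hb⟩ := exists_linearIndepOn_id_extension
    (K := k) (s := Set.range G) (t := Set.range G ∪ Set.range S)
    hind.linearIndepOn_id Set.subset_union_left
  have hbtop : Submodule.span k b = ⊤ := by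
    rw [eq_top_iff, ← htop, Submodule.span_le]
    exact htb
  let τ := {z : β // S z ∈ b ∧ S z ∉ Set.range G}
  have hsurj : ∀ y ∈ b, (∃ i, G i = y) ∨ ∃ z : τ, S z.1 = y := by
    intro y hy
    by_cases h : y ∈ Set.range G
    · exact Or.inl h
    · rcases hbt hy with h1 | ⟨z, rfl⟩
      · exact absurd h1 h
      · exact Or.inr ⟨⟨z, hy, h⟩, rfl⟩
  let g : τ ⊕ Fin c → b := Sum.elim (fun z => ⟨S z.1, z.2.1⟩) (fun i => ⟨G i, hsb ⟨i, rfl⟩⟩)
  have hg : Function.Injective g := by
    rintro (z | i) (z' | i') h
    · have h1 : S z.1 = S z'.1 := congrArg Subtype.val h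
      exact congrArg Sum.inl (Subtype.ext (hS h1))
    · have h1 : S z.1 = G i' := congrArg Subtype.val h
      exact absurd ⟨i', h1.symm⟩ z.2.2
    · have h1 : G i = S z'.1 := congrArg Subtype.val h
      exact absurd ⟨i, h1⟩ z'.2.2
    · have h1 : G i = G i' := congrArg Subtype.val h
      exact congrArg Sum.inr (hind.injective h1)
  have hv : LinearIndependent k (Sum.elim (fun z : τ => S z.1) G : τ ⊕ Fin c → (α ⊕ β → k)) := by
    have h1 : LinearIndependent k (fun y : b => (y : α ⊕ β → k)) := hb
    have h2 := h1.comp g hg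
    convert h2 using 1
    funext x
    rcases x with x | x <;> rfl
  have hvtop : ⊤ ≤ Submodule.span k
      (Set.range (Sum.elim (fun z : τ => S z.1) G : τ ⊕ Fin c → (α ⊕ β → k))) := by
    rw [← hbtop, Submodule.span_le]
    intro y hy
    rcases hsurj y hy with ⟨i, rfl⟩ | ⟨z, rfl⟩
    · exact Submodule.subset_span ⟨Sum.inr i, rfl⟩
    · exact Submodule.subset_span ⟨Sum.inl z, rfl⟩
  have hcard : Fintype.card τ + c = Fintype.card (α ⊕ β) := by
    have h1 := Module.finrank_eq_card_basis (Module.Basis.mk hv hvtop)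
    rw [Module.finrank_fintype_fun_eq_card, Fintype.card_sum (α := τ), Fintype.card_fin] at h1
    exact h1.symm
  refine ⟨Fintype.card τ, hcard, fun l => ((Fintype.equivFin τ).symm l).1, ?_, ?_⟩
  · intro l l' h
    exact (Fintype.equivFin τ).symm.injective (Subtype.ext h)
  · have h1 : Function.Injective (Sum.map (Fintype.equivFin τ).symm (id : Fin c → Fin c)) :=
      Sum.map_injective.2 ⟨(Fintype.equivFin τ).symm.injective, Function.injective_id⟩
    have h2 := hv.comp _ h1
    convert h2 using 1
    funext x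
    rcases x with x | x <;> rfl

end proj

end Vale.Agent.P054.T2.H395
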