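import Vale.Agent.P054.T2.H428.SecC
import Vale.Agent.P054.T2.H395.Comap

set_option autoImplicit false

/-!
# P054 / T2, leaf [C2] for the interface `Side`: [COMAP] and [RJET]
-/

open MvPolynomial Module

namespace Vale.Agent.P054.T2.H395

open H930 SecC
open Vale.Agent.P054.T2.H686 (mu meet Qf Crd leaf)
open Vale.Agent.P054.T2.H580 (Vw hilbF rkF IsFilt)

variable {n : ℕ} {A : Finset (ZZ n × ZZ n)} {W D σ v : ℕ} (S : Side n A W D σ v)

/-- **[COMAP]** for all jets -/
theorem comap_J_side {e : ZZ n × ZZ n} (he : e ∈ A) (m : ℕ) :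
    (J (hx e.1 e.2) (S.F e.1) m).comap (rename (R := ℝ) Sum.inl) = J (mu e.1 e.2) (S.f e.1) m :=
  comap_J (hx e.1 e.2) (S.f e.1) (S.F e.1) (S.hleft e.1) (S.hzero e he) (S.hindf e he)
    (S.hindr e he) m

/-- **[COMAP]** -/
theorem comap_P {e : ZZ n × ZZ n} (he : e ∈ A) :
    (S.P e).comap (rename (R := ℝ) Sum.inl) = S.Pu e :=
  comap_germ (hx e.1 e.2) (S.f e.1) (S.F e.1) (S.hleft e.1) (S.hzero e he) (S.hindf e he)
    (S.hindr e he)

/-- the hypothesis `hcomap` of 455's `cnt_linear`, `cnt_stereo` -/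
theorem hcomap (e : ZZ n × ZZ n) : ∀ e2 ∈ S.cls e,
    (S.P e2).comap (rename (R := ℝ) Sum.inl) ≤ S.Pu e2 :=
  fun _ h2 => (comap_P S (S.mem_cls.1 h2).1).le

theorem grad_incL_inl (s r : ZZ n) (i j : Fin n) :
    grad (hx s r) (incL s i) (Sum.inl j) = if i = j then s.1 0 - r.1 0 else 0 := by
  classical
  unfold grad incL
  simp only [map_sub, pderiv_mul, pderiv_C, pderiv_X, map_mul, map_add, sub_zero]
  by_cases h : i = j
  · subst h
    simp [hx, pt]
  · simp [hx, pt, h]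

/-- no tangent vector of the hat-leaf germ is `u`-vertical -/
theorem hinj_side {e : ZZ n × ZZ n} (he : e ∈ A) (w : Fin n → ℝ)
    (hw : ∀ i, ∑ j, grad (hx e.1 e.2) (S.F e.1 i) (Sum.inl j) * w j = 0) : w = 0 := by
  classical
  have hz := S.hzero e he
  funext i
  have h1 := grad_mem_of_mem_germ hz (S.hinc e he i)
  have h2 : ∀ g ∈ Submodule.span ℝ (Set.range fun i => grad (hx e.1 e.2) (S.F e.1 i)),
      ∑ j, g (Sum.inl j) * w j = 0 := by
    intro g hg
    refine Submodule.span_induction (p := fun g _ => ∑ j, g (Sum.inl j) * w j = 0)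
      ?_ ?_ ?_ ?_ hg
    · rintro _ ⟨i, rfl⟩
      exact hw i
    · simp
    · intro x y _ _ hx hy
      simp only [Pi.add_apply, add_mul, Finset.sum_add_distrib, hx, hy, add_zero]
    · intro a x _ hx
      simp only [Pi.smul_apply, smul_eq_mul, mul_assoc, ← Finset.mul_sum, hx, mul_zero]
  have h3 := h2 _ h1
  simp only [grad_incL_inl, ite_mul, zero_mul, Finset.sum_ite_eq, Finset.mem_univ, if_true] at h3
  have h4 : e.1.1 0 - e.2.1 0 ≠ 0 := sub_ne_zero.2 (S.hne e he)
  simpa [h4] using h3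

/-- local coordinates of the hat-leaf germ among the variables `r` -/
theorem exists_coord_side {e : ZZ n × ZZ n} (he : e ∈ A) :
    ∃ x : Fin (σ + v) → ZI n, Function.Injective x ∧
      LinearIndependent ℝ (Sum.elim (fun l => Pi.single (Sum.inr (x l)) (1 : ℝ))
        (fun i => grad (hx e.1 e.2) (S.F e.1 i)) :
          Fin (σ + v) ⊕ Fin ((n - σ) + (2 * (n + 1) - v)) → (HL n → ℝ)) := by
  obtain ⟨e', he', x, hx1, hx2⟩ := exists_coord_inr (hx e.1 e.2) (S.F e.1) (S.hind e he)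
    (hinj_side S he)
  have h1 : e' = σ + v := by
    have h2 := S.hσ
    have h3 := S.hv
    simp only [Fintype.card_sum, Fintype.card_fin] at he'
    omega
  subst h1
  exact ⟨x, hx1, hx2⟩

/-- **[RJET]** the jets of the hat-leaf germ are the jets in the variables `r` -/
theorem finrank_jets_side {e : ZZ n × ZZ n} (he : e ∈ A) (m : ℕ) :
    finrank ℝ (MvPolynomial (ZI n) ℝ ⧸
      (J (hx e.1 e.2) (S.F e.1) (m + 1)).comap (rename (R := ℝ) Sum.inr)) =
      (m + (σ + v)).choose (σ + v) := by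
  obtain ⟨x, hx1, hx2⟩ := exists_coord_side S he
  have h := finrank_comap_J (hx e.1 e.2) (S.F e.1) (S.hzero e he) x hx2 (by
    have h2 := S.hσ
    have h3 := S.hv
    simp only [Fintype.card_sum, Fintype.card_fin]
    omega) m
  rw [Fintype.card_fin] at h
  exact h

/-- **[RJET]** in the form `hjet` of 701's `good_side` -/
theorem jets_side {e : ZZ n × ZZ n} (he : e ∈ A) (m : ℕ) :
    (m + σ).choose σ ≤ finrank ℝ (MvPolynomial (ZI n) ℝ ⧸
      (J (hx e.1 e.2) (S.F e.1) (m + 1)).comap (rename (R := ℝ) Sum.inr)) := by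
  rw [finrank_jets_side S he m, ← Nat.choose_symm_add, ← Nat.choose_symm_add]
  exact Nat.choose_le_choose m (by omega)

theorem hjet (e : ZZ n × ZZ n) : ∀ e1 ∈ S.cls e, ∀ m, (m + σ).choose σ ≤
    finrank ℝ (MvPolynomial (ZI n) ℝ ⧸
      (J (hx e1.1 e1.2) (S.F e1.1) (m + 1)).comap (rename (R := ℝ) Sum.inr)) :=
  fun _ h1 m => jets_side S (S.mem_cls.1 h1).1 m

end Vale.Agent.P054.T2.H395
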